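import Vale.Agent.P155.S7.Strands
import Vale.Agent.P155.D877.Lat

/-!
# P155, TIGHT, (S7): the lattice forms of CROSS, TOP, FAT (upper half)
-/

namespace Vale.Agent.P155.S7

open Finset Skel Vale.Agent.P155.T802 J Vale.Agent.P155.Q1 Vale.Agent.P155.D877

theorem dF_le_of {O : Set Pt} {x y : Pt} {r : ℕ} (hy : y ∉ O) (h : dn x y ≤ r) : dF O x ≤ r :=
  Nat.sInf_le ⟨y, hy, h⟩

/-- the scale `n = ⌊c R / 16⌋` -/
theorem scale {c : ℝ} (hc : 0 < c) : ∃ A R0 : ℕ, 1 ≤ R0 ∧ ∀ (R : ℕ) (T : Temp)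
    (p0 p1 q0 q1 X0 X1 : ℤ), R0 ≤ R → Fits T R →
    LRect Prod.fst Prod.snd T R c p0 p1 q0 q1 → ∃ n : ℕ, (R : ℝ) ^ (1 / 2 : ℝ) ≤ n ∧
      c * R / 32 ≤ n ∧ 3 * (n : ℝ) + 1 ≤ c * R ∧
      ((p0 : ℝ) + c * R ≤ X0 → (X0 : ℝ) + c * R ≤ X1 → (X1 : ℝ) + c * R ≤ p1 →
        RGeo T p0 p1 q0 q1 X0 X1 A n) ∧
      RGeo T p0 p1 q0 q1 (p0 + n) (p1 - n) A n := by
  refine ⟨⌈64 / c⌉₊, max 1 (max ⌈32 / c⌉₊ ⌈(32 / c) ^ 2⌉₊), le_max_left _ _, ?_⟩
  intro R T p0 p1 q0 q1 X0 X1 hR hfit hr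
  have hR1 : 1 ≤ R := (le_max_left _ _).trans hR
  have hR2 : 32 / c ≤ R := by
    have : ⌈32 / c⌉₊ ≤ R := ((le_max_left _ _).trans (le_max_right _ _)).trans hR
    exact (Nat.le_ceil _).trans (by exact_mod_cast this)
  have hR3 : (32 / c) ^ 2 ≤ R := by
    have : ⌈(32 / c) ^ 2⌉₊ ≤ R := ((le_max_right _ _).trans (le_max_right _ _)).trans hR
    exact (Nat.le_ceil _).trans (by exact_mod_cast this)
  have hR0 : (0 : ℝ) < R := by exact_mod_cast hR1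
  have hcR : 32 ≤ c * R := by
    rw [div_le_iff₀ hc] at hR2
    linarith
  set n : ℕ := ⌊c * R / 16⌋₊ with hn
  have hn1 : (n : ℝ) ≤ c * R / 16 := Nat.floor_le (by positivity)
  have hn2 : c * R / 32 ≤ n := by
    have := Nat.sub_one_lt_floor (c * R / 16)
    rw [← hn] at this
    linarith
  have hn3 : 1 ≤ n := by
    have : (0 : ℝ) < n := by linarith
    exact_mod_cast this
  have hsq : (R : ℝ) ^ (1 / 2 : ℝ) ≤ n := by
    refine le_trans ?_ hn2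
    rw [← Real.sqrt_eq_rpow, Real.sqrt_le_left (by positivity)]
    rw [div_pow, div_le_iff₀ (by positivity)] at hR3
    have : (c * R / 32) ^ 2 = R * (R * c ^ 2) / 32 ^ 2 := by ring
    rw [this, le_div_iff₀ (by norm_num)]
    exact mul_le_mul_of_nonneg_left hR3 hR0.le
  -- the rectangle lies in the box of radius `R`
  have hq := hr.hq
  have hp := hr.hp
  have hqZ : q0 ≤ q1 := by
    have : (q0 : ℝ) ≤ q1 := by linarith
    exact_mod_cast this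
  have hpZ : p0 ≤ p1 := by
    have : (p0 : ℝ) ≤ p1 := by linarith
    exact_mod_cast this
  have hin : ∀ z : Pt, p0 ≤ z.1 → z.1 ≤ p1 → q0 ≤ z.2 → z.2 ≤ q1 → ∀ f : Pt,
      |z.1 - f.1| ≤ 4 * n → |z.2 - f.2| ≤ 4 * n → f ∈ T.faceSet := by
    intro z h1 h2 h3 h4 f h5 h6
    by_contra hf
    have h7 : dn z f ≤ 4 * n := by
      unfold dn dinf
      have : max |z.1 - f.1| |z.2 - f.2| ≤ 4 * (n : ℤ) := max_le h5 h6
      omega
    have h8 : (dF T.faceSet z : ℝ) ≤ 4 * n := by exact_mod_cast dF_le_of hf h7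
    have h9 := hr.deep z h1 h2 h3 h4
    linarith
  have far : ∀ f : Pt, p0 - 4 * n ≤ f.1 → f.1 ≤ p1 + 4 * n → q0 - 4 * n ≤ f.2 →
      f.2 ≤ q1 + 4 * n → f ∈ T.faceSet := by
    intro f h1 h2 h3 h4
    refine hin (max p0 (min f.1 p1), max q0 (min f.2 q1)) ?_ ?_ ?_ ?_ f ?_ ?_
    · exact le_max_left _ _
    · simp only; omega
    · exact le_max_left _ _
    · simp only; omega
    · simp only; rw [abs_le]; omega
    · simp only; rw [abs_le]; omega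
  have hbox : ∀ z : Pt, p0 ≤ z.1 → z.1 ≤ p1 → q0 ≤ z.2 → z.2 ≤ q1 →
      -(R : ℤ) ≤ z.1 ∧ z.1 ≤ R ∧ -(R : ℤ) ≤ z.2 ∧ z.2 ≤ R := by
    intro z h1 h2 h3 h4
    have h5 := J.mem_box.1 (Finset.mem_coe.1 (hfit (far z (by omega) (by omega) (by omega)
      (by omega))))
    simp only at h5
    omega
  have hA : 64 / c ≤ (⌈64 / c⌉₊ : ℝ) := Nat.le_ceil _
  have h2R : (2 * R : ℝ) ≤ ⌈64 / c⌉₊ * n := by
    calc (2 * R : ℝ) = 64 / c * (c * R / 32) := by field_simp; norm_num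
      _ ≤ ⌈64 / c⌉₊ * n := by
          apply mul_le_mul hA hn2 (by positivity) (by positivity)
  have h2RZ : 2 * (R : ℤ) ≤ ((⌈64 / c⌉₊ : ℕ) : ℤ) * n := by exact_mod_cast h2R
  have wid : p1 - p0 ≤ ((⌈64 / c⌉₊ : ℕ) : ℤ) * n := by
    have a := hbox (p0, q0) le_rfl hpZ le_rfl hqZ
    have b := hbox (p1, q0) hpZ le_rfl le_rfl hqZ
    simp only at a b
    omega
  have hgt : q1 - q0 ≤ ((⌈64 / c⌉₊ : ℕ) : ℤ) * n := by
    have a := hbox (p0, q0) le_rfl hpZ le_rfl hqZ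
    have b := hbox (p0, q1) le_rfl hpZ hqZ le_rfl
    simp only at a b
    omega
  refine ⟨n, hsq, hn2, by linarith, ?_, ?_⟩
  · intro h1 h2 h3
    refine ⟨hn3, ?_, ?_, ?_, hqZ, wid, hgt, far⟩
    · have : (p0 : ℝ) + n ≤ X0 := by linarith
      exact_mod_cast this
    · have : (X0 : ℝ) + n ≤ X1 := by linarith
      exact_mod_cast this
    · have : (X1 : ℝ) + n ≤ p1 := by linarith
      exact_mod_cast this
  · refine ⟨hn3, by omega, ?_, by omega, hqZ, wid, hgt, far⟩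
    have : (p0 : ℝ) + n + n ≤ p1 - n := by linarith
    exact_mod_cast this

/-- a negative power of `R` is small -/
theorem small_R {C c ε : ℝ} (hc : 0 < c) (hε : 0 < ε) : ∃ R0 : ℕ, 1 ≤ R0 ∧
    ∀ R : ℕ, R0 ≤ R → C * (R : ℝ) ^ (-c) ≤ ε := by
  have h := (tendsto_rpow_neg_atTop hc).comp (tendsto_natCast_atTop_atTop (R := ℝ))
  have h2 := (h.const_mul C)
  rw [mul_zero] at h2
  have h3 := h2.eventually (gt_mem_nhds hε)
  obtain ⟨R0, hR0⟩ := Filter.eventually_atTop.1 h3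
  exact ⟨max 1 R0, le_max_left _ _, fun R hR => (hR0 R ((le_max_right _ _).trans hR)).le⟩

/-- a positive power of `w` is small -/
theorem small_w {C b ε : ℝ} (hb : 0 < b) (hC : 0 < C) (hε : 0 < ε) : ∃ w : ℝ, 0 < w ∧ w ≤ 1 ∧
    C * w ^ b ≤ ε := by
  refine ⟨min 1 ((ε / C) ^ (1 / b)), by positivity, min_le_left _ _, ?_⟩
  have h1 : (min 1 ((ε / C) ^ (1 / b))) ^ b ≤ ((ε / C) ^ (1 / b)) ^ b :=
    Real.rpow_le_rpow (by positivity) (min_le_right _ _) hb.le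
  rw [← Real.rpow_mul (by positivity), one_div_mul_cancel hb.ne', Real.rpow_one] at h1
  calc C * (min 1 ((ε / C) ^ (1 / b))) ^ b ≤ C * (ε / C) := by
        refine mul_le_mul_of_nonneg_left ?_ hC.le
        exact h1
    _ = ε := by field_simp

theorem lc (h : CROSSs) : LC Prod.fst Prod.snd := by
  intro c ε hc hε
  obtain ⟨A, R0, hR0, hsc⟩ := scale hc
  obtain ⟨b, c', C, hb, hc', hC, hh⟩ := h (1 / 2) (by norm_num) A
  obtain ⟨R1, hR1, hs1⟩ := small_R (C := C) hc' (half_pos hε)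
  obtain ⟨N, hN1, hs2⟩ := small_R (C := C) hb (half_pos hε)
  refine ⟨N, max R0 R1, ?_⟩
  intro R hR T hfit p0 p1 q0 q1 hr
  obtain ⟨n, h1, h2, h3, _, g⟩ := hsc R T p0 p1 q0 q1 0 0 ((le_max_left _ _).trans hR) hfit hr
  have hRR : 1 ≤ R := hR0.trans ((le_max_left _ _).trans hR)
  refine (E.Pr_mono (fun ω _ (hω : N < _) => hω.le)).trans
    ((hh T R n p0 p1 q0 q1 _ _ hRR hfit h1 g N hN1).trans ?_)
  have k1 := hs1 R ((le_max_right _ _).trans hR)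
  have k2 := hs2 N le_rfl
  linarith

theorem lt (h : TOPs) : LT Prod.fst Prod.snd := by
  intro c ε hc hε
  obtain ⟨A, R0, hR0, hsc⟩ := scale hc
  obtain ⟨b, c', C, hb, hc', hC, hh⟩ := h (1 / 2) (by norm_num) A
  obtain ⟨R1, hR1, hs1⟩ := small_R (C := C) hc' (half_pos hε)
  obtain ⟨w, hw, hw1, hs2⟩ := small_w hb hC (half_pos hε)
  refine ⟨w * (c / 32) ^ 2, by positivity, max R0 R1, ?_⟩
  intro R hR T hfit p0 p1 q0 q1 X0 X1 hr a1 a2 a3
  obtain ⟨n, h1, h2, h3, g, _⟩ := hsc R T p0 p1 q0 q1 X0 X1 ((le_max_left _ _).trans hR) hfit hr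
  have hRR : 1 ≤ R := hR0.trans ((le_max_left _ _).trans hR)
  refine (E.Pr_mono (fun ω _ => ?_)).trans
    ((hh T R n p0 p1 q0 q1 _ _ hRR hfit h1 (g a1 a2 a3) w hw hw1).trans ?_)
  · rintro ⟨v, m, v', m', hs, hs', hne, -, hsum⟩
    refine ⟨v, m, v', m', hs, hs', hne, hsum.le.trans ?_⟩
    have : (c / 32 * R) ^ 2 ≤ (n : ℝ) ^ 2 := pow_le_pow_left₀ (by positivity) (by linarith) 2
    calc w * (c / 32) ^ 2 * (R : ℝ) ^ 2 = w * (c / 32 * R) ^ 2 := by ring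
      _ ≤ w * (n : ℝ) ^ 2 := mul_le_mul_of_nonneg_left this hw.le
  · have k1 := hs1 R ((le_max_right _ _).trans hR)
    linarith

theorem lfup (h : FATup) : LFup := by
  intro c ε hc hε
  obtain ⟨A, R0, hR0, hsc⟩ := scale hc
  obtain ⟨b, c', C, hb, hc', hC, hh⟩ := h (1 / 2) (by norm_num) A
  obtain ⟨R1, hR1, hs1⟩ := small_R (C := C) hc' (half_pos hε)
  obtain ⟨w, hw, hw1, hs2⟩ := small_w hb hC (half_pos hε)
  refine ⟨w * (c / 32) ^ 2, by positivity, max R0 R1, ?_⟩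
  intro R hR T hfit p0 p1 q0 q1 hr
  obtain ⟨n, h1, h2, h3, _, g⟩ := hsc R T p0 p1 q0 q1 0 0 ((le_max_left _ _).trans hR) hfit hr
  have hRR : 1 ≤ R := hR0.trans ((le_max_left _ _).trans hR)
  refine (E.Pr_mono (fun ω _ => ?_)).trans
    ((hh T R n p0 p1 q0 q1 _ _ hRR hfit h1 g w hw hw1).trans ?_)
  · rintro ⟨v, m, hs, hup, har⟩
    refine ⟨v, m, hs, hup p0 le_rfl (by have := g.two; omega), ?_⟩
    have e1 : areaR p0 p1 q0 q1 n ω (comp ω v) ≤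
        Set.ncard (Area Prod.fst Prod.snd ω v (c * R) p0 p1 q0 q1) := by
      unfold areaR
      refine Set.ncard_le_ncard ?_ ?_
      · rintro f ⟨⟨k1, k2, k3, k4⟩, k5⟩
        have k1' : (p0 : ℝ) ≤ f.1 := by exact_mod_cast k1
        have k2' : (f.1 : ℝ) + 1 ≤ p1 := by exact_mod_cast k2
        have k3' : (q0 : ℝ) - 3 * n ≤ f.2 := by exact_mod_cast k3
        have k4' : (f.2 : ℝ) + 1 ≤ q1 + 3 * n := by exact_mod_cast k4
        exact ⟨k5, by linarith, by linarith, by linarith, by linarith⟩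
      · refine Set.Finite.subset (Finset.finite_toSet
          (Finset.Icc ⌊(p0 : ℝ) - c * R⌋ ⌈(p1 : ℝ) + c * R⌉ ×ˢ
            Finset.Icc ⌊(q0 : ℝ) - c * R⌋ ⌈(q1 : ℝ) + c * R⌉)) ?_
        rintro f ⟨_, k1, k2, k3, k4⟩
        rw [Finset.mem_coe, Finset.mem_product, Finset.mem_Icc, Finset.mem_Icc]
        refine ⟨⟨?_, ?_⟩, ?_, ?_⟩
        · exact_mod_cast (Int.floor_le _).trans k1
        · have : (f.1 : ℝ) ≤ ⌈(p1 : ℝ) + c * R⌉ := le_trans (by linarith) (Int.le_ceil _)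
          exact_mod_cast this
        · exact_mod_cast (Int.floor_le _).trans k3
        · have : (f.2 : ℝ) ≤ ⌈(q1 : ℝ) + c * R⌉ := le_trans (by linarith) (Int.le_ceil _)
          exact_mod_cast this
    have : (c / 32 * R) ^ 2 ≤ (n : ℝ) ^ 2 := pow_le_pow_left₀ (by positivity) (by linarith) 2
    calc (areaR p0 p1 q0 q1 n ω (comp ω v) : ℝ) ≤
          Set.ncard (Area Prod.fst Prod.snd ω v (c * R) p0 p1 q0 q1) := by exact_mod_cast e1
      _ ≤ w * (c / 32) ^ 2 * (R : ℝ) ^ 2 := har.le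
      _ = w * (c / 32 * R) ^ 2 := by ring
      _ ≤ w * (n : ℝ) ^ 2 := mul_le_mul_of_nonneg_left this hw.le
  · have k1 := hs1 R ((le_max_right _ _).trans hR)
    linarith

end Vale.Agent.P155.S7
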