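import Vale.Agent.P155.S7.TopFat
import Vale.Agent.P155.J.Height

/-!
# P155, TIGHT, (S7): the strand level, scale-free

A rectangle `[x0,x1] × [q0,q1]` of scale `n` inside the polygon.
-/

namespace Vale.Agent.P155.S7

open Finset Skel Vale.Agent.P155.T802 J Vale.Agent.P155.Q1

/-- A rectangle of scale `n` (up to the factor `A`), with middle columns `[mL, mR)`, at distance at
least `4 n` from the complement of the polygon. -/
structure RGeo (T : Temp) (x0 x1 q0 q1 mL mR : ℤ) (A n : ℕ) : Prop where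
  n1 : 1 ≤ n
  l : x0 + n ≤ mL
  m : mL + n ≤ mR
  r : mR + n ≤ x1
  q : q0 ≤ q1
  wid : x1 - x0 ≤ A * n
  hgt : q1 - q0 ≤ A * n
  far : ∀ f : Pt, x0 - 4 * n ≤ f.1 → f.1 ≤ x1 + 4 * n → q0 - 4 * n ≤ f.2 → f.2 ≤ q1 + 4 * n →
    f ∈ T.faceSet

/-- the cap over a rectangle -/
def capOf (x0 x1 q0 q1 : ℤ) (n : ℕ) (h : x0 + 2 ≤ x1) (hq : q0 ≤ q1) : Cap where
  x0 := x0
  x1 := x1
  y0 := q0
  y1 := q1 + n + 2
  yc := q1
  xS := x0 + 1
  hS0 := by omega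
  hS1 := by omega
  hy0 := hq
  hy1 := by omega

variable {T : Temp} {x0 x1 q0 q1 mL mR : ℤ} {A n R : ℕ} {ω : Conf}

theorem RGeo.two (g : RGeo T x0 x1 q0 q1 mL mR A n) : x0 + 2 ≤ x1 := by
  have := g.n1
  have := g.l
  have := g.m
  have := g.r
  omega

theorem RGeo.geo (g : RGeo T x0 x1 q0 q1 mL mR A n) (hfit : Fits T R) :
    Geo T (capOf x0 x1 q0 q1 n g.two g.q) (-(R : ℤ) - 3) mL mR (A + 3) n where
  below := by
    intro t ht hV
    have := mem_V_box hfit hV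
    rw [J.mem_box] at this
    simp only at this
    omega
  ht := by
    have h1 := hfit (g.far (x0, q1) (by simp only; omega) (by have := g.two; simp only; omega)
      (by have := g.q; simp only; omega) (by simp only; omega))
    have h2 := J.mem_box.1 (Finset.mem_coe.1 h1)
    simp only at h2
    show (-(R : ℤ) - 3) < q1 + n + 2
    omega
  l := g.l
  m := g.m
  r := g.r
  top := by
    show q1 + (n : ℤ) ≤ q1 + n + 2
    omega
  wid := by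
    have := g.wid
    show x1 - x0 ≤ ((A + 3 : ℕ) : ℤ) * n
    push_cast
    nlinarith
  hgt := by
    have := g.hgt
    have := g.n1
    show q1 + (n : ℤ) + 2 - q0 ≤ ((A + 3 : ℕ) : ℤ) * n
    push_cast
    nlinarith
  far := by
    have := g.n1
    intro f h1 h2 h3 h4
    have h1' : x0 - n ≤ f.1 := h1
    have h2' : f.1 ≤ x1 + n := h2
    have h3' : q0 - n ≤ f.2 := h3
    have h4' : f.2 ≤ q1 + n + 2 + n := h4
    exact g.far f (by omega) (by omega) (by omega) (by omega)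

/-! ### one strand -/

variable {V : Finset Pt} {Q : Cap} {t0 : ℤ} {v v' : Pt} {m m' : ℕ}

theorem st_cj (hω : ω ∈ DD V) (hb : ∀ t ≤ t0, (Q.xS, t) ∉ V) (ht : t0 < Q.y1) (h0 : Q.y0 ≤ q0)
    (h1 : q1 ≤ Q.yc) (hs : Strand Prod.fst Prod.snd ω Q.x0 Q.x1 q0 q1 v m) :
    ∃ j, 1 ≤ j ∧ Q.Has V t0 ω j ∧ inner ω v m = Q.cj V t0 ω j :=
  good_eq_cj hω hb ht (st_good hω h0 h1 hs)

theorem suc_same (ω : Conf) (v : Pt) (j : ℕ) : Same ω v ((SW.suc ω)^[j] v) := by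
  induction j with
  | zero => exact Relation.ReflTransGen.refl
  | succ j ih =>
    rw [Function.iterate_succ_apply']
    exact Relation.ReflTransGen.tail ih (suc_or ω _)

theorem same_symm (hω : ω ∈ DD V) {u v : Pt} (h : Same ω u v) : Same ω v u := by
  induction h with
  | refl => exact Relation.ReflTransGen.refl
  | tail _ h ih =>
    refine Relation.ReflTransGen.head ?_ ih
    rcases h with h | h
    · left; rw [h, L.inv1 hω]
    · right; rw [h, L.inv2 hω]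

theorem comp_eq_of_same (hω : ω ∈ DD V) {u v : Pt} (h : Same ω u v) : comp ω u = comp ω v := by
  ext w
  exact ⟨fun hw => Relation.ReflTransGen.trans (same_symm hω h) hw,
    fun hw => Relation.ReflTransGen.trans h hw⟩

/-- the loop of the strand is the owner of the crossing -/
theorem own_eq (hω : ω ∈ DD V) (hs : Strand Prod.fst Prod.snd ω Q.x0 Q.x1 q0 q1 v m) {j : ℕ}
    (hj : inner ω v m = Q.cj V t0 ω j) : own Q V t0 ω j = comp ω v := by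
  have hm := st_two hω hs
  ext w
  simp only [own, Set.mem_ofPred_eq]
  constructor
  · rintro ⟨u, hu, hw⟩
    rw [← hj] at hu
    obtain ⟨i, _, _, rfl⟩ := hu
    rw [comp_eq_of_same hω (suc_same ω v i)]
    exact hw
  · intro hw
    refine ⟨SW.suc ω v, hj ▸ ⟨1, by omega, by omega, rfl⟩, ?_⟩
    have := comp_eq_of_same hω (suc_same ω v 1)
    rw [Function.iterate_one] at this
    rwa [← this]

/-- the face above the highest edge of the column `X` touches the crossing, upper side -/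
theorem top_face (hω : ω ∈ DD V) {K : Set Pt} (g : Q.Good V ω K) {X : ℤ} (h0 : Q.x0 ≤ X)
    (h1 : X < Q.x1) : Touch K (X, topE ω K X) ∧ Q.pr ω K (X, topE ω K X) = 1 := by
  obtain ⟨he, _⟩ := g.topE_spec hω h0 h1
  have hr := hedge_reg g.reg he
  have hy := Q.hy1
  refine ⟨?_, g.above hω h0 h1 (by omega) le_rfl⟩
  rcases he.1 with h | h
  · exact ⟨_, by simp [corners], h⟩
  · exact ⟨_, by simp [corners], h⟩

/-- `UpIn` by one face -/
theorem upIn_iff (hω : ω ∈ DD V) {j : ℕ} (hj : 1 ≤ j) (hH : Q.Has V t0 ω j)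
    (hL : own Q V t0 ω j ∈ Loops ω) {X : ℤ} (h0 : Q.x0 ≤ X) (h1 : X < Q.x1) :
    UpIn Q V t0 ω j ↔ surr ω (own Q V t0 ω j) (X, topE ω (Q.cj V t0 ω j) X) := by
  have g := cj_good hj hH
  obtain ⟨a, b⟩ := top_face hω g h0 h1
  constructor
  · rintro ⟨f, hf, hp, hs⟩
    exact (same_side hω g hL hf a (hp.trans b.symm)).1 hs
  · intro hs
    exact ⟨_, a, b, hs⟩

/-- two different strands which are close to each other: some gap is small -/
theorem top_gap (g : Geo T Q t0 mL mR A n) (hω : ω ∈ DD T.V) (h0 : Q.y0 ≤ q0) (h1 : q1 ≤ Q.yc)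
    (hs : Strand Prod.fst Prod.snd ω Q.x0 Q.x1 q0 q1 v m)
    (hs' : Strand Prod.fst Prod.snd ω Q.x0 Q.x1 q0 q1 v' m') (hne : v ≠ v') :
    ∃ j, 1 ≤ j ∧ Q.Has T.V t0 ω (j + 1) ∧ gap Q T.V t0 mL mR ω j ≤
      ∑ X ∈ Finset.Ico mL mR, |(topS Prod.fst Prod.snd ω v m X : ℝ) -
        topS Prod.fst Prod.snd ω v' m' X| := by
  obtain ⟨i, hi, hHi, ei⟩ := st_cj hω g.below g.ht h0 h1 hs
  obtain ⟨j, hj, hHj, ej⟩ := st_cj hω g.below g.ht h0 h1 hs'
  have e : ∀ X, topS Prod.fst Prod.snd ω v m X = topE ω (Q.cj T.V t0 ω i) X := fun X => by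
    rw [st_top hω hs, ei]
  have e' : ∀ X, topS Prod.fst Prod.snd ω v' m' X = topE ω (Q.cj T.V t0 ω j) X := fun X => by
    rw [st_top hω hs', ej]
  simp only [e, e']
  have key : ∀ i j : ℕ, 1 ≤ i → i < j → Q.Has T.V t0 ω j →
      gap Q T.V t0 mL mR ω i ≤ ∑ X ∈ Finset.Ico mL mR, |(topE ω (Q.cj T.V t0 ω j) X : ℝ) -
        topE ω (Q.cj T.V t0 ω i) X| := by
    intro i j hi hij hH
    unfold gap
    apply Finset.sum_le_sum
    intro X hX
    obtain ⟨k1, k2⟩ := g.mid hX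
    refine le_trans ?_ (le_abs_self _)
    rcases Nat.lt_or_ge (i + 1) j with h | h
    · have := sk_top hω g.below g.ht (by omega) h hH k1 k2
      have : (topE ω (Q.cj T.V t0 ω (i + 1)) X : ℝ) < topE ω (Q.cj T.V t0 ω j) X := by
        exact_mod_cast this
      linarith
    · have : j = i + 1 := by omega
      rw [this]
  rcases Nat.lt_trichotomy i j with h | h | h
  · refine ⟨i, hi, has_mono (by omega) hHj, (key i j hi h hHj).trans (le_of_eq ?_)⟩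
    exact Finset.sum_congr rfl fun X _ => abs_sub_comm _ _
  · exfalso
    apply hne
    apply st_inj hω h0 h1 hs hs'
    rw [ei, ej, h]
  · exact ⟨j, hj, has_mono (by omega) hHi, key j i hj h hHi⟩

/-! ### scale-free statements for strands -/

/-- **CROSSs** -/
def CROSSs : Prop :=
  ∀ a0 : ℝ, 0 < a0 → ∀ A : ℕ, ∃ b c C : ℝ, 0 < b ∧ 0 < c ∧ 0 < C ∧
  ∀ (T : Temp) (R n : ℕ) (x0 x1 q0 q1 mL mR : ℤ), 1 ≤ R → Fits T R → (R : ℝ) ^ a0 ≤ n →
  RGeo T x0 x1 q0 q1 mL mR A n → ∀ N : ℕ, 1 ≤ N →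
    Pr T.V (fun ω => N ≤ Set.ncard {v | ∃ m, Strand Prod.fst Prod.snd ω x0 x1 q0 q1 v m}) ≤
      C * (N : ℝ) ^ (-b) + C * (R : ℝ) ^ (-c)

/-- **TOPs** -/
def TOPs : Prop :=
  ∀ a0 : ℝ, 0 < a0 → ∀ A : ℕ, ∃ b c C : ℝ, 0 < b ∧ 0 < c ∧ 0 < C ∧
  ∀ (T : Temp) (R n : ℕ) (x0 x1 q0 q1 mL mR : ℤ), 1 ≤ R → Fits T R → (R : ℝ) ^ a0 ≤ n →
  RGeo T x0 x1 q0 q1 mL mR A n → ∀ w : ℝ, 0 < w → w ≤ 1 →
    Pr T.V (fun ω => ∃ v m v' m', Strand Prod.fst Prod.snd ω x0 x1 q0 q1 v m ∧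
      Strand Prod.fst Prod.snd ω x0 x1 q0 q1 v' m' ∧ v ≠ v' ∧
      ∑ X ∈ Finset.Ico mL mR, |(topS Prod.fst Prod.snd ω v m X : ℝ) -
        topS Prod.fst Prod.snd ω v' m' X| ≤ w * (n : ℝ) ^ 2) ≤ C * w ^ b + C * (R : ℝ) ^ (-c)

/-- number of faces surrounded by `L` near the rectangle -/
noncomputable def areaR (x0 x1 q0 q1 : ℤ) (n : ℕ) (ω : Conf) (L : Set Pt) : ℕ :=
  Set.ncard {f : Pt | (x0 ≤ f.1 ∧ f.1 < x1 ∧ q0 - 3 * n ≤ f.2 ∧ f.2 < q1 + 3 * n) ∧ surr ω L f}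

/-- **FATup**: the loop surrounds the upper side of the strand -/
def FATup : Prop :=
  ∀ a0 : ℝ, 0 < a0 → ∀ A : ℕ, ∃ b c C : ℝ, 0 < b ∧ 0 < c ∧ 0 < C ∧
  ∀ (T : Temp) (R n : ℕ) (x0 x1 q0 q1 mL mR : ℤ), 1 ≤ R → Fits T R → (R : ℝ) ^ a0 ≤ n →
  RGeo T x0 x1 q0 q1 mL mR A n → ∀ w : ℝ, 0 < w → w ≤ 1 →
    Pr T.V (fun ω => ∃ v m, Strand Prod.fst Prod.snd ω x0 x1 q0 q1 v m ∧
      surr ω (comp ω v) (x0, topS Prod.fst Prod.snd ω v m x0) ∧
      (areaR x0 x1 q0 q1 n ω (comp ω v) : ℝ) ≤ w * (n : ℝ) ^ 2) ≤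
      C * w ^ b + C * (R : ℝ) ^ (-c)

/-- **FATs**: every loop with a strand across the rectangle surrounds a macroscopic area. -/
def FATs : Prop :=
  ∀ a0 : ℝ, 0 < a0 → ∀ A : ℕ, ∃ b c C : ℝ, 0 < b ∧ 0 < c ∧ 0 < C ∧
  ∀ (T : Temp) (R n : ℕ) (x0 x1 q0 q1 mL mR : ℤ), 1 ≤ R → Fits T R → (R : ℝ) ^ a0 ≤ n →
  RGeo T x0 x1 q0 q1 mL mR A n → ∀ w : ℝ, 0 < w → w ≤ 1 →
    Pr T.V (fun ω => ∃ v m, Strand Prod.fst Prod.snd ω x0 x1 q0 q1 v m ∧
      (areaR x0 x1 q0 q1 n ω (comp ω v) : ℝ) ≤ w * (n : ℝ) ^ 2) ≤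
      C * w ^ b + C * (R : ℝ) ^ (-c)

theorem crosss (h : CROSSn) : CROSSs := by
  intro a0 ha0 A
  obtain ⟨b, c, C, hb, hc, hC, hh⟩ := h a0 ha0 (A + 3)
  refine ⟨b, c, C, hb, hc, hC, ?_⟩
  intro T R n x0 x1 q0 q1 mL mR hR hfit hRn g N hN
  have gg := g.geo hfit
  refine (E.Pr_mono (fun ω hω hN' => ?_)).trans (hh T R n _ _ mL mR hR hfit hRn gg N hN)
  exact has_mono hN' (has_strands (Q := capOf x0 x1 q0 q1 n g.two g.q) hω gg.below gg.ht
    (show q0 ≤ q0 from le_rfl) (show q1 ≤ q1 from le_rfl))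

theorem tops (h : TOPn) : TOPs := by
  intro a0 ha0 A
  obtain ⟨b, c, C, hb, hc, hC, hh⟩ := h a0 ha0 (A + 3)
  refine ⟨b, c, C, hb, hc, hC, ?_⟩
  intro T R n x0 x1 q0 q1 mL mR hR hfit hRn g w hw hw1
  have gg := g.geo hfit
  refine (E.Pr_mono (fun ω hω hN' => ?_)).trans (hh T R n _ _ mL mR hR hfit hRn gg w hw hw1)
  obtain ⟨v, m, v', m', hs, hs', hne, hsum⟩ := hN'
  obtain ⟨j, hj, hH, hgap⟩ := top_gap (Q := capOf x0 x1 q0 q1 n g.two g.q) gg hω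
    (show q0 ≤ q0 from le_rfl) (show q1 ≤ q1 from le_rfl) hs hs' hne
  exact ⟨j, hj, hH, hgap.trans hsum⟩

theorem comp_mem_loops (hs : Strand Prod.fst Prod.snd ω x0 x1 q0 q1 v m) :
    comp ω v ∈ Loops ω := ⟨v, hs.loop, rfl⟩

theorem area_mono (hn : 1 ≤ n) (h : x0 + 2 ≤ x1) (hq : q0 ≤ q1) (ω : Conf) (L : Set Pt) :
    area (capOf x0 x1 q0 q1 n h hq) ω L ≤ areaR x0 x1 q0 q1 n ω L := by
  unfold area areaR
  refine Set.ncard_le_ncard ?_ ?_
  · rintro f ⟨⟨h1, h2, h3, h4⟩, h5⟩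
    have h1' : x0 ≤ f.1 := h1
    have h2' : f.1 < x1 := h2
    have h3' : q0 ≤ f.2 := h3
    have h4' : f.2 < q1 + n + 2 := h4
    exact ⟨⟨h1', h2', by omega, by omega⟩, h5⟩
  · refine Set.Finite.subset (Finset.finite_toSet
      (Finset.Ico x0 x1 ×ˢ Finset.Ico (q0 - 3 * n) (q1 + 3 * n))) ?_
    rintro f ⟨h1, _⟩
    rw [Finset.mem_coe, Finset.mem_product, Finset.mem_Ico, Finset.mem_Ico]
    tauto

theorem fatup (h : FATn) : FATup := by
  intro a0 ha0 A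
  obtain ⟨b, c, C, hb, hc, hC, hh⟩ := h a0 ha0 (A + 3)
  refine ⟨b, c, C, hb, hc, hC, ?_⟩
  intro T R n x0 x1 q0 q1 mL mR hR hfit hRn g w hw hw1
  have gg := g.geo hfit
  refine (E.Pr_mono (fun ω hω hN' => ?_)).trans (hh T R n _ _ mL mR hR hfit hRn gg w hw hw1)
  obtain ⟨v, m, hs, hup, har⟩ := hN'
  obtain ⟨j, hj, hH, e⟩ := st_cj (Q := capOf x0 x1 q0 q1 n g.two g.q) hω gg.below gg.ht
    (show q0 ≤ q0 from le_rfl) (show q1 ≤ q1 from le_rfl) hs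
  have eo := own_eq (Q := capOf x0 x1 q0 q1 n g.two g.q) hω hs e
  have hL := comp_mem_loops hs
  refine ⟨j, hj, hH, ?_, ?_⟩
  · rw [upIn_iff hω hj hH (by rw [eo]; exact hL) (X := x0) le_rfl
      (show x0 < x1 by have := g.two; omega), eo, ← e,
      ← st_top (Q := capOf x0 x1 q0 q1 n g.two g.q) hω hs]
    exact hup
  · rw [eo]
    refine le_trans ?_ har
    exact_mod_cast area_mono g.n1 g.two g.q ω (comp ω v)

end Vale.Agent.P155.S7
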