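import Vale.Agent.P155.T802.Dict
import Vale.Agent.P155.T862.Cont
import Vale.Agent.P155.E.Prob

/-!
# P155, TIGHT, (S7): scale-free statements of the sweep

`STEP` and `AREA1` are proved from the evaluations (helper743's assembly of S5); `CROSSn`, `TOPn`,
`FATn` follow (files `S7/…`).
-/

namespace Vale.Agent.P155.S7

open Finset Skel Vale.Agent.P155.T802

/-- A cap of scale `n` (up to the factor `A`), with middle columns `[mL, mR)`, at distance at least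
`n` from the complement of the polygon. -/
structure Geo (T : Temp) (Q : Cap) (t0 mL mR : ℤ) (A n : ℕ) : Prop where
  below : ∀ t ≤ t0, (Q.xS, t) ∉ T.V
  ht : t0 < Q.y1
  l : Q.x0 + n ≤ mL
  m : mL + n ≤ mR
  r : mR + n ≤ Q.x1
  top : Q.yc + n ≤ Q.y1
  wid : Q.x1 - Q.x0 ≤ A * n
  hgt : Q.y1 - Q.y0 ≤ A * n
  far : ∀ f : Pt, Q.x0 - n ≤ f.1 → f.1 ≤ Q.x1 + n → Q.y0 - n ≤ f.2 → f.2 ≤ Q.y1 + n →
    f ∈ T.faceSet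

/-- the loop which contains the `j`-th good crossing -/
def own (Q : Cap) (V : Finset Pt) (t0 : ℤ) (ω : Conf) (j : ℕ) : Set Pt :=
  {v | ∃ u ∈ Q.cj V t0 ω j, v ∈ comp ω u}

/-- the owner of the `j`-th good crossing surrounds its upper side -/
def UpIn (Q : Cap) (V : Finset Pt) (t0 : ℤ) (ω : Conf) (j : ℕ) : Prop :=
  ∃ f, Touch (Q.cj V t0 ω j) f ∧ Q.pr ω (Q.cj V t0 ω j) f = 1 ∧ surr ω (own Q V t0 ω j) f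

/-- `L¹` distance of the tops of `c_j` and `c_{j+1}` over the middle columns -/
noncomputable def gap (Q : Cap) (V : Finset Pt) (t0 mL mR : ℤ) (ω : Conf) (j : ℕ) : ℝ :=
  ∑ x ∈ Finset.Ico mL mR, ((topE ω (Q.cj V t0 ω (j + 1)) x : ℝ) - topE ω (Q.cj V t0 ω j) x)

/-- number of the faces of the cap surrounded by `L` -/
noncomputable def area (Q : Cap) (ω : Conf) (L : Set Pt) : ℕ :=
  Set.ncard {f : Pt | (Q.x0 ≤ f.1 ∧ f.1 < Q.x1 ∧ Q.y0 ≤ f.2 ∧ f.2 < Q.y1) ∧ surr ω L f}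

/-- **STEP**: two consecutive good crossings are not close to each other. -/
def STEP : Prop :=
  ∀ a0 : ℝ, 0 < a0 → ∀ A : ℕ, ∃ b c C : ℝ, 0 < b ∧ 0 < c ∧ 0 < C ∧
  ∀ (T : Temp) (R n : ℕ) (Q : Cap) (t0 mL mR : ℤ), 1 ≤ R → Fits T R → (R : ℝ) ^ a0 ≤ n →
  Geo T Q t0 mL mR A n → ∀ (w : ℝ) (j : ℕ), 0 < w → w ≤ 1 → 1 ≤ j →
    Pr T.V (fun ω => Q.Has T.V t0 ω (j + 1) ∧ gap Q T.V t0 mL mR ω j ≤ w ^ 3 * (n : ℝ) ^ 2) ≤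
      C * w ^ b + C * w ^ (-C) * (R : ℝ) ^ (-c)

/-- **AREA1**: if the owner of the `j`-th good crossing surrounds the upper side, then it surrounds
a macroscopic area in the cap. -/
def AREA1 : Prop :=
  ∀ a0 : ℝ, 0 < a0 → ∀ A : ℕ, ∃ b c C : ℝ, 0 < b ∧ 0 < c ∧ 0 < C ∧
  ∀ (T : Temp) (R n : ℕ) (Q : Cap) (t0 mL mR : ℤ), 1 ≤ R → Fits T R → (R : ℝ) ^ a0 ≤ n →
  Geo T Q t0 mL mR A n → ∀ (w : ℝ) (j : ℕ), 0 < w → w ≤ 1 → 1 ≤ j →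
    Pr T.V (fun ω => Q.Has T.V t0 ω j ∧ UpIn Q T.V t0 ω j ∧
      (area Q ω (own Q T.V t0 ω j) : ℝ) ≤ w ^ 3 * (n : ℝ) ^ 2) ≤
      C * w ^ b + C * w ^ (-C) * (R : ℝ) ^ (-c)

/-- **CROSSn**: the number of good crossings is tight, uniformly over the scales. -/
def CROSSn : Prop :=
  ∀ a0 : ℝ, 0 < a0 → ∀ A : ℕ, ∃ b c C : ℝ, 0 < b ∧ 0 < c ∧ 0 < C ∧
  ∀ (T : Temp) (R n : ℕ) (Q : Cap) (t0 mL mR : ℤ), 1 ≤ R → Fits T R → (R : ℝ) ^ a0 ≤ n →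
  Geo T Q t0 mL mR A n → ∀ N : ℕ, 1 ≤ N →
    Pr T.V (fun ω => Q.Has T.V t0 ω N) ≤ C * (N : ℝ) ^ (-b) + C * (R : ℝ) ^ (-c)

/-- **TOPn**: no two good crossings are close to each other. -/
def TOPn : Prop :=
  ∀ a0 : ℝ, 0 < a0 → ∀ A : ℕ, ∃ b c C : ℝ, 0 < b ∧ 0 < c ∧ 0 < C ∧
  ∀ (T : Temp) (R n : ℕ) (Q : Cap) (t0 mL mR : ℤ), 1 ≤ R → Fits T R → (R : ℝ) ^ a0 ≤ n →
  Geo T Q t0 mL mR A n → ∀ w : ℝ, 0 < w → w ≤ 1 →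
    Pr T.V (fun ω => ∃ j, 1 ≤ j ∧ Q.Has T.V t0 ω (j + 1) ∧
      gap Q T.V t0 mL mR ω j ≤ w * (n : ℝ) ^ 2) ≤ C * w ^ b + C * (R : ℝ) ^ (-c)

/-- **FATn**: a loop surrounding the upper side of a good crossing surrounds a macroscopic area. -/
def FATn : Prop :=
  ∀ a0 : ℝ, 0 < a0 → ∀ A : ℕ, ∃ b c C : ℝ, 0 < b ∧ 0 < c ∧ 0 < C ∧
  ∀ (T : Temp) (R n : ℕ) (Q : Cap) (t0 mL mR : ℤ), 1 ≤ R → Fits T R → (R : ℝ) ^ a0 ≤ n →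
  Geo T Q t0 mL mR A n → ∀ w : ℝ, 0 < w → w ≤ 1 →
    Pr T.V (fun ω => ∃ j, 1 ≤ j ∧ Q.Has T.V t0 ω j ∧ UpIn Q T.V t0 ω j ∧
      (area Q ω (own Q T.V t0 ω j) : ℝ) ≤ w * (n : ℝ) ^ 2) ≤ C * w ^ b + C * (R : ℝ) ^ (-c)

end Vale.Agent.P155.S7
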