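import Vale.Agent.P155.S7.Iface

/-!
# P155, TIGHT, (S7): from one step to all good crossings
-/

namespace Vale.Agent.P155.S7

open Finset Skel Vale.Agent.P155.T802

/-- optimisation of the cut-off -/
theorem opt {b c C : ℝ} (hb : 0 < b) (hc : 0 < c) (hC : 0 < C) : ∃ c' C' : ℝ, 0 < c' ∧ 0 < C' ∧
    ∀ (R : ℕ) (f : ℝ → ℝ), 1 ≤ R → (∀ w w', 0 < w → w ≤ w' → w' ≤ 1 → f w ≤ f w') →
    (∀ w, 0 < w → w ≤ 1 → f w ≤ C * w ^ b + C * w ^ (-C) * (R : ℝ) ^ (-c)) →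
    ∀ w, 0 < w → w ≤ 1 → f w ≤ C' * w ^ b + C' * (R : ℝ) ^ (-c') := by
  refine ⟨min (c / 2) (c * b / (2 * C)), 2 * C, by positivity, by positivity, ?_⟩
  intro R f hR hmono hf w hw hw1
  have hR1 : (1 : ℝ) ≤ R := by exact_mod_cast hR
  have hR0 : (0 : ℝ) < R := by linarith
  set w0 : ℝ := (R : ℝ) ^ (-(c / (2 * C))) with hw0
  have hw0p : 0 < w0 := Real.rpow_pos_of_pos hR0 _
  have hw01 : w0 ≤ 1 := Real.rpow_le_one_of_one_le_of_nonpos hR1
    (by have : 0 < c / (2 * C) := by positivity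
        linarith)
  have e1 : w0 ^ (-C) * (R : ℝ) ^ (-c) = (R : ℝ) ^ (-(c / 2)) := by
    rw [hw0, ← Real.rpow_mul hR0.le, ← Real.rpow_add hR0]
    congr 1
    field_simp
    ring
  have e2 : w0 ^ b = (R : ℝ) ^ (-(c * b / (2 * C))) := by
    rw [hw0, ← Real.rpow_mul hR0.le]
    congr 1
    ring
  have m1 : (R : ℝ) ^ (-(c / 2)) ≤ (R : ℝ) ^ (-(min (c / 2) (c * b / (2 * C)))) :=
    Real.rpow_le_rpow_of_exponent_le hR1 (by have := min_le_left (c / 2) (c * b / (2 * C)); linarith)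
  have m2 : (R : ℝ) ^ (-(c * b / (2 * C))) ≤ (R : ℝ) ^ (-(min (c / 2) (c * b / (2 * C)))) :=
    Real.rpow_le_rpow_of_exponent_le hR1 (by have := min_le_right (c / 2) (c * b / (2 * C)); linarith)
  have hwb : 0 < w ^ b := Real.rpow_pos_of_pos hw _
  rcases le_total w0 w with h | h
  · refine (hf w hw hw1).trans ?_
    have h1 : w ^ (-C) ≤ w0 ^ (-C) :=
      Real.rpow_le_rpow_of_nonpos hw0p h (by linarith)
    have h2 : w ^ (-C) * (R : ℝ) ^ (-c) ≤ (R : ℝ) ^ (-(c / 2)) := by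
      rw [← e1]
      exact mul_le_mul_of_nonneg_right h1 (Real.rpow_nonneg hR0.le _)
    have h3 : 0 < (R : ℝ) ^ (-(min (c / 2) (c * b / (2 * C)))) := Real.rpow_pos_of_pos hR0 _
    nlinarith [h2.trans m1]
  · refine (hmono w w0 hw h hw01).trans ((hf w0 hw0p hw01).trans ?_)
    rw [mul_assoc, e1, e2]
    nlinarith [m1, m2]

/-- the event of some good crossing with a defect -/
theorem union {b c C b2 c2 C2 : ℝ} (hb : 0 < b) (hc : 0 < c) (hC : 0 < C) (hb2 : 0 < b2)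
    (hc2 : 0 < c2) (hC2 : 0 < C2) : ∃ b' c' C' : ℝ, 0 < b' ∧ 0 < c' ∧ 0 < C' ∧
    ∀ (R : ℕ) (V : Finset Pt) (H : ℕ → Conf → Prop) (F : ℝ → ℕ → Conf → Prop), 1 ≤ R →
    (∀ i j ω, i ≤ j → H j ω → H i ω) → (∀ w j ω, F w j ω → H j ω) →
    (∀ w w' j ω, w ≤ w' → F w j ω → F w' j ω) →
    (∀ w j, 0 < w → w ≤ 1 → 1 ≤ j →
      Pr V (F w j) ≤ C * w ^ b + C * w ^ (-C) * (R : ℝ) ^ (-c)) →
    (∀ N : ℕ, 1 ≤ N → Pr V (H N) ≤ C2 * (N : ℝ) ^ (-b2) + C2 * (R : ℝ) ^ (-c2)) →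
    ∀ w, 0 < w → w ≤ 1 → Pr V (fun ω => ∃ j, 1 ≤ j ∧ F w j ω) ≤
      C' * w ^ b' + C' * (R : ℝ) ^ (-c') := by
  set β := min (b / 2) (b * b2 / 2) with hβ
  set γ := min c c2 with hγ
  set D := 2 * C + 2 * C2 + b with hD
  have hβ0 : 0 < β := lt_min (by positivity) (by positivity)
  have hγ0 : 0 < γ := lt_min hc hc2
  have hD0 : 0 < D := by positivity
  obtain ⟨c', C', hc', hC', hopt⟩ := opt hβ0 hγ0 hD0
  refine ⟨β, c', C', hβ0, hc', hC', ?_⟩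
  intro R V H F hR hH hEH hmono hE hN
  refine hopt R (fun w => Pr V (fun ω => ∃ j, 1 ≤ j ∧ F w j ω)) hR ?_ ?_
  · intro w w' hw hww' hw'
    exact E.Pr_mono (fun ω _ ⟨j, hj, h⟩ => ⟨j, hj, hmono w w' j ω hww' h⟩)
  · intro w hw hw1
    have hR1 : (1 : ℝ) ≤ R := by exact_mod_cast hR
    have hR0 : (0 : ℝ) < R := by linarith
    set M : ℕ := ⌈w ^ (-(b / 2))⌉₊ with hM
    have hwb : 1 ≤ w ^ (-(b / 2)) := Real.one_le_rpow_of_pos_of_le_one_of_nonpos hw hw1 (by linarith)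
    have hM1 : w ^ (-(b / 2)) ≤ M := Nat.le_ceil _
    have hM2 : (M : ℝ) ≤ 2 * w ^ (-(b / 2)) := by
      have := Nat.ceil_lt_add_one (show (0 : ℝ) ≤ w ^ (-(b / 2)) by positivity)
      linarith
    have hM3 : 1 ≤ M := by
      have : (1 : ℝ) ≤ M := hwb.trans hM1
      exact_mod_cast this
    have step : Pr V (fun ω => ∃ j, 1 ≤ j ∧ F w j ω) ≤
        Pr V (fun ω => (∃ j ∈ Finset.Icc 1 M, F w j ω) ∨ H M ω) := by
      refine E.Pr_mono (fun ω _ ⟨j, hj, h⟩ => ?_)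
      by_cases hjM : j ≤ M
      · exact Or.inl ⟨j, Finset.mem_Icc.2 ⟨hj, hjM⟩, h⟩
      · exact Or.inr (hH M j ω (by omega) (hEH w j ω h))
    refine step.trans ((E.Pr_or_le _ _ _).trans ?_)
    have h1 : Pr V (fun ω => ∃ j ∈ Finset.Icc 1 M, F w j ω) ≤
        M * (C * w ^ b + C * w ^ (-C) * (R : ℝ) ^ (-c)) := by
      have := E.Pr_exists_le_card V (Finset.Icc 1 M) (fun j => F w j)
        (b := C * w ^ b + C * w ^ (-C) * (R : ℝ) ^ (-c))
        (fun j hj => hE w j hw hw1 (Finset.mem_Icc.1 hj).1)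
      rwa [Nat.card_Icc, Nat.add_sub_cancel] at this
    have h2 := hN M hM3
    have hwp : 0 < w ^ b := Real.rpow_pos_of_pos hw _
    have hwC : 0 < w ^ (-C) := Real.rpow_pos_of_pos hw _
    have hRc : 0 < (R : ℝ) ^ (-c) := Real.rpow_pos_of_pos hR0 _
    have hRc2 : (R : ℝ) ^ (-c2) ≤ (R : ℝ) ^ (-γ) :=
      Real.rpow_le_rpow_of_exponent_le hR1 (by have := min_le_right c c2; linarith)
    have hRc1 : (R : ℝ) ^ (-c) ≤ (R : ℝ) ^ (-γ) :=
      Real.rpow_le_rpow_of_exponent_le hR1 (by have := min_le_left c c2; linarith)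
    have hRγ : 0 < (R : ℝ) ^ (-γ) := Real.rpow_pos_of_pos hR0 _
    -- first term
    have k1 : w ^ (-(b / 2)) * w ^ b ≤ w ^ β := by
      rw [← Real.rpow_add hw]
      refine Real.rpow_le_rpow_of_exponent_ge hw hw1 ?_
      have := min_le_left (b / 2) (b * b2 / 2)
      linarith
    have k2 : w ^ (-(b / 2)) * w ^ (-C) ≤ w ^ (-D) := by
      rw [← Real.rpow_add hw]
      refine Real.rpow_le_rpow_of_exponent_ge hw hw1 ?_
      rw [hD]
      linarith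
    have k3 : (M : ℝ) ^ (-b2) ≤ w ^ β := by
      have q1 : (M : ℝ) ^ (-b2) ≤ (w ^ (-(b / 2))) ^ (-b2) :=
        Real.rpow_le_rpow_of_nonpos (by positivity) hM1 (by linarith)
      refine q1.trans ?_
      rw [← Real.rpow_mul hw.le]
      refine Real.rpow_le_rpow_of_exponent_ge hw hw1 ?_
      have := min_le_right (b / 2) (b * b2 / 2)
      nlinarith
    have k4 : 1 ≤ w ^ (-D) := Real.one_le_rpow_of_pos_of_le_one_of_nonpos hw hw1 (by linarith)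
    have hwβ : 0 < w ^ β := Real.rpow_pos_of_pos hw _
    have hwD : 0 < w ^ (-D) := Real.rpow_pos_of_pos hw _
    have j1 : (M : ℝ) * (C * w ^ b) ≤ 2 * C * w ^ β := by
      calc (M : ℝ) * (C * w ^ b) ≤ (2 * w ^ (-(b / 2))) * (C * w ^ b) :=
            mul_le_mul_of_nonneg_right hM2 (by positivity)
        _ = 2 * C * (w ^ (-(b / 2)) * w ^ b) := by ring
        _ ≤ 2 * C * w ^ β := mul_le_mul_of_nonneg_left k1 (by positivity)
    have j2 : (M : ℝ) * (C * w ^ (-C) * (R : ℝ) ^ (-c)) ≤ 2 * C * (w ^ (-D) * (R : ℝ) ^ (-γ)) := by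
      calc (M : ℝ) * (C * w ^ (-C) * (R : ℝ) ^ (-c)) ≤
            (2 * w ^ (-(b / 2))) * (C * w ^ (-C) * (R : ℝ) ^ (-c)) :=
            mul_le_mul_of_nonneg_right hM2 (by positivity)
        _ = 2 * C * ((w ^ (-(b / 2)) * w ^ (-C)) * (R : ℝ) ^ (-c)) := by ring
        _ ≤ 2 * C * (w ^ (-D) * (R : ℝ) ^ (-γ)) := by
            apply mul_le_mul_of_nonneg_left _ (by positivity)
            exact mul_le_mul k2 hRc1 hRc.le hwD.le
    have j3 : C2 * (M : ℝ) ^ (-b2) ≤ C2 * w ^ β := mul_le_mul_of_nonneg_left k3 hC2.le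
    have j4 : C2 * (R : ℝ) ^ (-c2) ≤ C2 * (w ^ (-D) * (R : ℝ) ^ (-γ)) := by
      apply mul_le_mul_of_nonneg_left _ hC2.le
      calc (R : ℝ) ^ (-c2) ≤ 1 * (R : ℝ) ^ (-γ) := by rw [one_mul]; exact hRc2
        _ ≤ w ^ (-D) * (R : ℝ) ^ (-γ) := mul_le_mul_of_nonneg_right k4 hRγ.le
    have t1 : (2 * C + C2) * w ^ β ≤ D * w ^ β :=
      mul_le_mul_of_nonneg_right (by rw [hD]; linarith) hwβ.le
    have t2 : (2 * C + C2) * (w ^ (-D) * (R : ℝ) ^ (-γ)) ≤ D * (w ^ (-D) * (R : ℝ) ^ (-γ)) :=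
      mul_le_mul_of_nonneg_right (by rw [hD]; linarith) (by positivity)
    have h1' : Pr V (fun ω => ∃ j ∈ Finset.Icc 1 M, F w j ω) ≤
        2 * C * w ^ β + 2 * C * (w ^ (-D) * (R : ℝ) ^ (-γ)) := by
      rw [mul_add] at h1
      linarith
    calc Pr V (fun ω => ∃ j ∈ Finset.Icc 1 M, F w j ω) + Pr V (fun ω => H M ω)
        ≤ (2 * C + C2) * w ^ β + (2 * C + C2) * (w ^ (-D) * (R : ℝ) ^ (-γ)) := by
          have : Pr V (fun ω => H M ω) = Pr V (H M) := rfl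
          rw [this]
          linarith
      _ ≤ D * w ^ β + D * w ^ (-D) * (R : ℝ) ^ (-γ) := by linarith

end Vale.Agent.P155.S7
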