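import Vale.Agent.P155.S7.Chain

/-!
# P155, TIGHT, (S7): `STEP` implies `CROSSn`
-/

namespace Vale.Agent.P155.S7

open Finset Skel Vale.Agent.P155.T802 J

open Classical in
theorem count_le {ι : Type*} (V : Finset Pt) (p : Conf → Prop) (I : Finset ι)
    (q : ι → Conf → Prop) (a : ℝ)
    (h : ∀ ω ∈ DD V, p ω → a ≤ ∑ i ∈ I, if q i ω then (1 : ℝ) else 0) :
    a * Pr V p ≤ ∑ i ∈ I, Pr V (q i) := by
  have e : ∀ i, Pr V (q i) = avg (DD V) (fun ω => if q i ω then (1 : ℝ) else 0) :=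
    fun i => E.Pr_eq_avg V (q i)
  rw [E.Pr_eq_avg]
  simp only [e]
  rw [← avg_sum, ← avg_mul_left]
  apply avg_mono
  intro ω hω
  by_cases hp : p ω
  · rw [if_pos hp, mul_one]
    exact h ω hω hp
  · rw [if_neg hp, mul_zero]
    apply Finset.sum_nonneg
    intro i _
    split_ifs <;> norm_num

variable {T : Temp} {Q : Cap} {t0 mL mR : ℤ} {A n : ℕ} {ω : Conf}

theorem Geo.mid (g : Geo T Q t0 mL mR A n) {x : ℤ} (h : x ∈ Finset.Ico mL mR) :
    Q.x0 ≤ x ∧ x < Q.x1 := by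
  have h1 := g.l
  have h2 := g.r
  rw [Finset.mem_Ico] at h
  omega

theorem gap_nonneg (g : Geo T Q t0 mL mR A n) (hω : ω ∈ DD T.V) {j : ℕ} (hj : 1 ≤ j)
    (h : Q.Has T.V t0 ω (j + 1)) : 0 ≤ gap Q T.V t0 mL mR ω j := by
  unfold gap
  apply Finset.sum_nonneg
  intro x hx
  obtain ⟨h1, h2⟩ := g.mid hx
  have := sk_top hω g.below g.ht hj (Nat.lt_succ_self j) h h1 h2
  have : (topE ω (Q.cj T.V t0 ω j) x : ℝ) < topE ω (Q.cj T.V t0 ω (j + 1)) x := by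
    exact_mod_cast this
  linarith

/-- the gaps sum up to at most the area of the cap -/
theorem sum_gap (g : Geo T Q t0 mL mR A n) (hω : ω ∈ DD T.V) {N : ℕ} (hN : 1 ≤ N)
    (h : Q.Has T.V t0 ω N) : ∑ j ∈ Finset.Ico 1 N, gap Q T.V t0 mL mR ω j ≤ ((A : ℝ) * n) ^ 2 := by
  unfold gap
  rw [Finset.sum_comm]
  have e : ∀ x ∈ Finset.Ico mL mR, ∑ j ∈ Finset.Ico 1 N,
      ((topE ω (Q.cj T.V t0 ω (j + 1)) x : ℝ) - topE ω (Q.cj T.V t0 ω j) x) ≤ A * n := by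
    intro x hx
    obtain ⟨h1, h2⟩ := g.mid hx
    rw [Finset.sum_Ico_sub (fun j => (topE ω (Q.cj T.V t0 ω j) x : ℝ)) hN]
    have g1 := cj_good le_rfl (has_mono hN h)
    have g2 := cj_good hN h
    have k1 := (hedge_reg g1.reg (g1.topE_spec hω h1 h2).1).1
    have k2 := (hedge_reg g2.reg (g2.topE_spec hω h1 h2).1).2
    have k3 : topE ω (Q.cj T.V t0 ω N) x - topE ω (Q.cj T.V t0 ω 1) x ≤ A * n := by
      have := g.hgt
      have := g.top
      omega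
    exact_mod_cast k3
  refine (Finset.sum_le_sum e).trans ?_
  rw [Finset.sum_const, Int.card_Ico, nsmul_eq_mul]
  have h3 : mR - mL ≤ A * n := by
    have := g.wid
    have := g.l
    have := g.r
    omega
  have h4 : (((mR - mL).toNat : ℕ) : ℝ) ≤ A * n := by
    have : (((mR - mL).toNat : ℕ) : ℤ) ≤ A * n := by
      have : (0 : ℤ) ≤ A * n := by positivity
      omega
    exact_mod_cast this
  calc (((mR - mL).toNat : ℕ) : ℝ) * (A * n) ≤ (A * n) * (A * n) :=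
        mul_le_mul_of_nonneg_right h4 (by positivity)
    _ = ((A : ℝ) * n) ^ 2 := by ring

open Classical in
/-- many small gaps -/
theorem small_gaps (g : Geo T Q t0 mL mR A n) (hω : ω ∈ DD T.V) {N : ℕ} (hN : 1 ≤ N)
    (h : Q.Has T.V t0 ω N) {t : ℝ} (ht : 0 < t) :
    (N : ℝ) - 1 - ((A : ℝ) * n) ^ 2 / t ≤ ∑ j ∈ Finset.Ico 1 N,
      if (Q.Has T.V t0 ω (j + 1) ∧ gap Q T.V t0 mL mR ω j ≤ t) then (1 : ℝ) else 0 := by
  have hs := sum_gap g hω hN h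
  have h1 : ∀ j ∈ Finset.Ico 1 N, t * (1 - if (Q.Has T.V t0 ω (j + 1) ∧
      gap Q T.V t0 mL mR ω j ≤ t) then (1 : ℝ) else 0) ≤ gap Q T.V t0 mL mR ω j := by
    intro j hj
    rw [Finset.mem_Ico] at hj
    have hH : Q.Has T.V t0 ω (j + 1) := has_mono (by omega) h
    have h0 := gap_nonneg g hω hj.1 hH
    split_ifs with hc
    · simpa using h0
    · have : t < gap Q T.V t0 mL mR ω j := by
        by_contra hcon
        exact hc ⟨hH, not_lt.1 hcon⟩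
      linarith
  have h2 := Finset.sum_le_sum h1
  rw [← Finset.mul_sum, Finset.sum_sub_distrib, Finset.sum_const, Nat.card_Ico, nsmul_eq_mul,
    mul_one, Nat.cast_sub hN, Nat.cast_one] at h2
  have h3 : (N : ℝ) - 1 - (∑ j ∈ Finset.Ico 1 N,
      if (Q.Has T.V t0 ω (j + 1) ∧ gap Q T.V t0 mL mR ω j ≤ t) then (1 : ℝ) else 0) ≤
      ((A : ℝ) * n) ^ 2 / t := by
    rw [le_div_iff₀ ht]
    linarith
  linarith

theorem Geo.n_pos (g : Geo T Q t0 mL mR A n) : 1 ≤ A ∧ 1 ≤ n := by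
  have h1 := g.wid
  have h2 := Q.hx
  have h3 : (0 : ℤ) < A * n := by omega
  constructor
  · by_contra hcon
    have : A = 0 := by omega
    subst this
    simp at h3
  · by_contra hcon
    have : n = 0 := by omega
    subst this
    simp at h3

/-- one value of `N` -/
theorem cross_one {b c C : ℝ} (hb : 0 < b) (hC : 0 < C) {T : Temp} {R n A : ℕ} {Q : Cap}
    {t0 mL mR : ℤ} (hR : 1 ≤ R) (g : Geo T Q t0 mL mR A n)
    (hstep : ∀ (w : ℝ) (j : ℕ), 0 < w → w ≤ 1 → 1 ≤ j →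
      Pr T.V (fun ω => Q.Has T.V t0 ω (j + 1) ∧ gap Q T.V t0 mL mR ω j ≤ w ^ 3 * (n : ℝ) ^ 2) ≤
        C * w ^ b + C * w ^ (-C) * (R : ℝ) ^ (-c)) {N : ℕ} (hN : 1 ≤ N) :
    Pr T.V (fun ω => Q.Has T.V t0 ω N) ≤
      ((4 * A ^ 2 + 4 : ℝ) ^ (b / 3) + 4 * C * (4 * A ^ 2 + 4 : ℝ) ^ (b / 3)) * (N : ℝ) ^ (-(b / 3)) +
      4 * C * (N : ℝ) ^ (C / 3) * (R : ℝ) ^ (-c) := by
  obtain ⟨hA, hn⟩ := g.n_pos
  have hA' : (1 : ℝ) ≤ A := by exact_mod_cast hA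
  have hn' : (1 : ℝ) ≤ n := by exact_mod_cast hn
  have hN' : (1 : ℝ) ≤ N := by exact_mod_cast hN
  have hR0 : (0 : ℝ) < R := by exact_mod_cast hR
  set a : ℝ := 4 * A ^ 2 + 4 with ha
  have ha0 : 8 ≤ a := by nlinarith
  have hpos : 0 ≤ 4 * C * (N : ℝ) ^ (C / 3) * (R : ℝ) ^ (-c) := by positivity
  have hab : 0 < a ^ (b / 3) := Real.rpow_pos_of_pos (by linarith) _
  have hNb : 0 < (N : ℝ) ^ (-(b / 3)) := Real.rpow_pos_of_pos (by linarith) _
  have eNa : a ^ (b / 3) * (N : ℝ) ^ (-(b / 3)) = (a / N) ^ (b / 3) := by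
    rw [Real.rpow_neg (by linarith), ← div_eq_mul_inv, ← Real.div_rpow (by linarith) (by linarith)]
  rcases le_total (N : ℝ) a with hNa | hNa
  · -- trivial case
    have h1 : 1 ≤ (a / N) ^ (b / 3) :=
      Real.one_le_rpow (by rw [le_div_iff₀ (by linarith)]; linarith) (by positivity)
    have h2 := E.Pr_le_one T.V (fun ω => Q.Has T.V t0 ω N)
    have h3 : 0 ≤ 4 * C * a ^ (b / 3) * (N : ℝ) ^ (-(b / 3)) := by positivity
    rw [add_mul, eNa]
    linarith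
  · set w : ℝ := (a / N) ^ (1 / 3 : ℝ) with hw
    have hq0 : 0 < a / N := by positivity
    have hq1 : a / N ≤ 1 := by rw [div_le_one (by linarith)]; exact hNa
    have hw0 : 0 < w := Real.rpow_pos_of_pos hq0 _
    have hw1 : w ≤ 1 := Real.rpow_le_one hq0.le hq1 (by norm_num)
    have hw3 : w ^ 3 = a / N := by
      rw [hw, ← Real.rpow_natCast, ← Real.rpow_mul hq0.le]
      norm_num
    have hwb : w ^ b = (a / N) ^ (b / 3) := by
      rw [hw, ← Real.rpow_mul hq0.le]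
      congr 1
      ring
    have hwC : w ^ (-C) ≤ (N : ℝ) ^ (C / 3) := by
      rw [hw, ← Real.rpow_mul hq0.le]
      have e : (1 / 3 : ℝ) * (-C) = -(C / 3) := by ring
      rw [e, Real.rpow_neg hq0.le, ← Real.inv_rpow hq0.le, inv_div]
      refine Real.rpow_le_rpow (by positivity) ?_ (by positivity)
      rw [div_le_iff₀ (by linarith)]
      nlinarith
    have ht : 0 < w ^ 3 * (n : ℝ) ^ 2 := by positivity
    have key := count_le T.V (fun ω => Q.Has T.V t0 ω N) (Finset.Ico 1 N)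
      (fun j ω => Q.Has T.V t0 ω (j + 1) ∧ gap Q T.V t0 mL mR ω j ≤ w ^ 3 * (n : ℝ) ^ 2)
      ((N : ℝ) - 1 - ((A : ℝ) * n) ^ 2 / (w ^ 3 * (n : ℝ) ^ 2))
      (fun ω hω h => by convert small_gaps g hω hN h ht)
    have hsum : ∑ j ∈ Finset.Ico 1 N, Pr T.V (fun ω => Q.Has T.V t0 ω (j + 1) ∧
        gap Q T.V t0 mL mR ω j ≤ w ^ 3 * (n : ℝ) ^ 2) ≤
        N * (C * w ^ b + C * w ^ (-C) * (R : ℝ) ^ (-c)) := by
      calc _ ≤ ∑ j ∈ Finset.Ico 1 N, (C * w ^ b + C * w ^ (-C) * (R : ℝ) ^ (-c)) :=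
            Finset.sum_le_sum (fun j hj => hstep w j hw0 hw1 (Finset.mem_Ico.1 hj).1)
        _ = ((N - 1 : ℕ) : ℝ) * (C * w ^ b + C * w ^ (-C) * (R : ℝ) ^ (-c)) := by
            rw [Finset.sum_const, Nat.card_Ico, nsmul_eq_mul]
        _ ≤ N * (C * w ^ b + C * w ^ (-C) * (R : ℝ) ^ (-c)) := by
            apply mul_le_mul_of_nonneg_right _ (by positivity)
            exact_mod_cast Nat.sub_le N 1
    have e3 : ((A : ℝ) * n) ^ 2 / (w ^ 3 * (n : ℝ) ^ 2) ≤ N / 4 := by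
      rw [hw3]
      have : ((A : ℝ) * n) ^ 2 / (a / N * (n : ℝ) ^ 2) = A ^ 2 / a * N := by
        field_simp
      rw [this]
      have h4 : (A : ℝ) ^ 2 / a ≤ 1 / 4 := by
        rw [div_le_iff₀ (by linarith)]
        rw [ha]
        linarith
      nlinarith
    have e4 : (N : ℝ) / 4 ≤ (N : ℝ) - 1 - ((A : ℝ) * n) ^ 2 / (w ^ 3 * (n : ℝ) ^ 2) := by
      have : (8 : ℝ) ≤ N := by linarith
      linarith
    have hP := E.Pr_nonneg T.V (fun ω => Q.Has T.V t0 ω N)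
    have e5 : (N : ℝ) / 4 * Pr T.V (fun ω => Q.Has T.V t0 ω N) ≤
        N * (C * w ^ b + C * w ^ (-C) * (R : ℝ) ^ (-c)) :=
      (mul_le_mul_of_nonneg_right e4 hP).trans (key.trans hsum)
    have e6 : Pr T.V (fun ω => Q.Has T.V t0 ω N) ≤
        4 * (C * w ^ b + C * w ^ (-C) * (R : ℝ) ^ (-c)) := by
      have h5 : (N : ℝ) * (Pr T.V (fun ω => Q.Has T.V t0 ω N)) ≤
          N * (4 * (C * w ^ b + C * w ^ (-C) * (R : ℝ) ^ (-c))) := by linarith
      exact le_of_mul_le_mul_left h5 (by linarith)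
    refine e6.trans ?_
    rw [add_mul, mul_assoc (4 * C), eNa, hwb]
    have h7 : C * w ^ (-C) * (R : ℝ) ^ (-c) ≤ C * (N : ℝ) ^ (C / 3) * (R : ℝ) ^ (-c) :=
      mul_le_mul_of_nonneg_right (mul_le_mul_of_nonneg_left hwC hC.le) (by positivity)
    have h8 : 0 < (a / N) ^ (b / 3) := Real.rpow_pos_of_pos hq0 _
    nlinarith

/-- **STEP implies CROSSn** -/
theorem crossn (hS : STEP) : CROSSn := by
  intro a0 ha0 A
  obtain ⟨b, c, C, hb, hc, hC, hstep⟩ := hS a0 ha0 A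
  set K : ℝ := (4 * A ^ 2 + 4 : ℝ) ^ (b / 3) + 4 * C * (4 * A ^ 2 + 4 : ℝ) ^ (b / 3) with hK
  have hK0 : 0 < K := by positivity
  set D : ℝ := K + 4 * C * 2 ^ (C / 3) + C / 3 with hD
  have hD0 : 0 < D := by positivity
  obtain ⟨c', C', hc', hC', hopt⟩ := opt (show 0 < b / 3 by positivity) hc hD0
  refine ⟨b / 3, c', C', by positivity, hc', hC', ?_⟩
  intro T R n Q t0 mL mR hR hfit hRn g N hN
  have hN' : (1 : ℝ) ≤ N := by exact_mod_cast hN
  have hmain := hopt R (fun w => Pr T.V (fun ω => Q.Has T.V t0 ω ⌈w⁻¹⌉₊)) hR ?_ ?_ (N : ℝ)⁻¹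
    (by positivity) (inv_le_one_of_one_le₀ hN')
  · simp only [inv_inv, Nat.ceil_natCast] at hmain
    rw [Real.inv_rpow (by linarith), ← Real.rpow_neg (by linarith)] at hmain
    exact hmain
  · intro w w' hw hww' hw'
    refine E.Pr_mono (fun ω _ h => has_mono ?_ h)
    exact Nat.ceil_mono (inv_anti₀ hw hww')
  · intro w hw hw1
    have hR0 : (0 : ℝ) < R := by exact_mod_cast hR
    have hwi : 1 ≤ w⁻¹ := (one_le_inv₀ hw).2 hw1
    have h1 : w⁻¹ ≤ (⌈w⁻¹⌉₊ : ℝ) := Nat.le_ceil _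
    have h2 : (⌈w⁻¹⌉₊ : ℝ) ≤ 2 * w⁻¹ := by
      have := Nat.ceil_lt_add_one (show (0 : ℝ) ≤ w⁻¹ by positivity)
      linarith
    have h3 : 1 ≤ ⌈w⁻¹⌉₊ := by
      have : (1 : ℝ) ≤ (⌈w⁻¹⌉₊ : ℝ) := hwi.trans h1
      exact_mod_cast this
    have h := cross_one hb hC hR g
      (fun w j hw hw1 hj => hstep T R n Q t0 mL mR hR hfit hRn g w j hw hw1 hj) h3
    refine h.trans ?_
    rw [← hK]
    have k1 : (⌈w⁻¹⌉₊ : ℝ) ^ (-(b / 3)) ≤ w ^ (b / 3) := by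
      have q1 : (⌈w⁻¹⌉₊ : ℝ) ^ (-(b / 3)) ≤ (w⁻¹) ^ (-(b / 3)) :=
        Real.rpow_le_rpow_of_nonpos (by positivity) h1 (by linarith)
      refine q1.trans (le_of_eq ?_)
      rw [Real.inv_rpow hw.le, Real.rpow_neg hw.le, inv_inv]
    have k2 : (⌈w⁻¹⌉₊ : ℝ) ^ (C / 3) ≤ 2 ^ (C / 3) * w ^ (-D) := by
      have q1 : (⌈w⁻¹⌉₊ : ℝ) ^ (C / 3) ≤ (2 * w⁻¹) ^ (C / 3) :=
        Real.rpow_le_rpow (by positivity) h2 (by positivity)
      rw [Real.mul_rpow (by norm_num) (by positivity), Real.inv_rpow hw.le,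
        ← Real.rpow_neg hw.le] at q1
      refine q1.trans (mul_le_mul_of_nonneg_left ?_ (by positivity))
      refine Real.rpow_le_rpow_of_exponent_ge hw hw1 ?_
      have : 0 ≤ K + 4 * C * 2 ^ (C / 3) := by positivity
      rw [hD]
      linarith
    have hRc : 0 < (R : ℝ) ^ (-c) := Real.rpow_pos_of_pos hR0 _
    have hwD : 0 < w ^ (-D) := Real.rpow_pos_of_pos hw _
    have hwb : 0 < w ^ (b / 3) := Real.rpow_pos_of_pos hw _
    have k3 : K * (⌈w⁻¹⌉₊ : ℝ) ^ (-(b / 3)) ≤ D * w ^ (b / 3) := by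
      calc K * (⌈w⁻¹⌉₊ : ℝ) ^ (-(b / 3)) ≤ K * w ^ (b / 3) := mul_le_mul_of_nonneg_left k1 hK0.le
        _ ≤ D * w ^ (b / 3) := by
            apply mul_le_mul_of_nonneg_right _ hwb.le
            have : 0 ≤ 4 * C * (2 : ℝ) ^ (C / 3) := by positivity
            rw [hD]
            linarith
    have k4 : 4 * C * (⌈w⁻¹⌉₊ : ℝ) ^ (C / 3) * (R : ℝ) ^ (-c) ≤ D * w ^ (-D) * (R : ℝ) ^ (-c) := by
      apply mul_le_mul_of_nonneg_right _ hRc.le
      calc 4 * C * (⌈w⁻¹⌉₊ : ℝ) ^ (C / 3) ≤ 4 * C * (2 ^ (C / 3) * w ^ (-D)) :=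
            mul_le_mul_of_nonneg_left k2 (by positivity)
        _ = (4 * C * 2 ^ (C / 3)) * w ^ (-D) := by ring
        _ ≤ D * w ^ (-D) := by
            apply mul_le_mul_of_nonneg_right _ hwD.le
            rw [hD]
            linarith
    linarith

end Vale.Agent.P155.S7
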