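import Vale.Agent.P155.S7.Cross

/-!
# P155, TIGHT, (S7): `STEP` implies `TOPn`, `STEP` and `AREA1` imply `FATn`
-/

namespace Vale.Agent.P155.S7

open Finset Skel Vale.Agent.P155.T802 J

/-- change of variables `w = w'^(1/3)` -/
theorem cube {w b : ℝ} (hw : 0 < w) (hw1 : w ≤ 1) : ∃ v : ℝ, 0 < v ∧ v ≤ 1 ∧ v ^ 3 = w ∧
    v ^ b = w ^ (b / 3) := by
  refine ⟨w ^ (1 / 3 : ℝ), Real.rpow_pos_of_pos hw _, Real.rpow_le_one hw.le hw1 (by norm_num),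
    ?_, ?_⟩
  · rw [← Real.rpow_natCast, ← Real.rpow_mul hw.le]
    norm_num
  · rw [← Real.rpow_mul hw.le]
    congr 1
    ring

theorem sq_mono {w w' : ℝ} (n : ℕ) (hw : w ≤ w') : w ^ 3 * (n : ℝ) ^ 2 ≤ w' ^ 3 * (n : ℝ) ^ 2 :=
  mul_le_mul_of_nonneg_right (pow_le_pow_left_of_odd hw) (by positivity)
where
  pow_le_pow_left_of_odd {a b : ℝ} (h : a ≤ b) : a ^ 3 ≤ b ^ 3 :=
    (Odd.strictMono_pow (by decide : Odd 3)).monotone h

/-- **STEP implies TOPn** -/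
theorem topn (hS : STEP) : TOPn := by
  intro a0 ha0 A
  obtain ⟨b, c, C, hb, hc, hC, hstep⟩ := hS a0 ha0 A
  obtain ⟨b2, c2, C2, hb2, hc2, hC2, hcr⟩ := crossn hS a0 ha0 A
  obtain ⟨b', c', C', hb', hc', hC', hu⟩ := union hb hc hC hb2 hc2 hC2
  refine ⟨b' / 3, c', C', by positivity, hc', hC', ?_⟩
  intro T R n Q t0 mL mR hR hfit hRn g w hw hw1
  obtain ⟨v, hv, hv1, hv3, hvb⟩ := cube (b := b') hw hw1
  have := hu R T.V (fun j ω => Q.Has T.V t0 ω j)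
    (fun w j ω => Q.Has T.V t0 ω (j + 1) ∧ gap Q T.V t0 mL mR ω j ≤ w ^ 3 * (n : ℝ) ^ 2) hR
    (fun i j ω hij h => has_mono hij h) (fun w j ω h => has_of_succ h.1)
    (fun w w' j ω hw h => ⟨h.1, h.2.trans (sq_mono n hw)⟩)
    (fun w j hw hw1 hj => hstep T R n Q t0 mL mR hR hfit hRn g w j hw hw1 hj)
    (fun N hN => hcr T R n Q t0 mL mR hR hfit hRn g N hN) v hv hv1
  rw [hv3, hvb] at this
  exact this

/-- **STEP and AREA1 imply FATn** -/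
theorem fatn (hS : STEP) (hA : AREA1) : FATn := by
  intro a0 ha0 A
  obtain ⟨b, c, C, hb, hc, hC, hstep⟩ := hA a0 ha0 A
  obtain ⟨b2, c2, C2, hb2, hc2, hC2, hcr⟩ := crossn hS a0 ha0 A
  obtain ⟨b', c', C', hb', hc', hC', hu⟩ := union hb hc hC hb2 hc2 hC2
  refine ⟨b' / 3, c', C', by positivity, hc', hC', ?_⟩
  intro T R n Q t0 mL mR hR hfit hRn g w hw hw1
  obtain ⟨v, hv, hv1, hv3, hvb⟩ := cube (b := b') hw hw1
  have := hu R T.V (fun j ω => Q.Has T.V t0 ω j)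
    (fun w j ω => Q.Has T.V t0 ω j ∧ UpIn Q T.V t0 ω j ∧
      (area Q ω (own Q T.V t0 ω j) : ℝ) ≤ w ^ 3 * (n : ℝ) ^ 2) hR
    (fun i j ω hij h => has_mono hij h) (fun w j ω h => h.1)
    (fun w w' j ω hw h => ⟨h.1, h.2.1, h.2.2.trans (sq_mono n hw)⟩)
    (fun w j hw hw1 hj => hstep T R n Q t0 mL mR hR hfit hRn g w j hw hw1 hj)
    (fun N hN => hcr T R n Q t0 mL mR hR hfit hRn g N hN) v hv hv1
  rw [hv3, hvb] at this
  exact this

end Vale.Agent.P155.S7
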